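import Mathlib
import Vale.Agent.Lib.P137.helper41.Defs

/-!
# P137 (helper37): polar coordinates for radial functions, `lintegral` form
-/

namespace Vale.Agent.Lib.P137.H37

open Vale.Agent.Lib.P137 MeasureTheory Metric Set Filter
open scoped ENNReal NNReal Topology

/-- Polar coordinates for radial functions (`lintegral` form). -/
theorem lintegral_fun_norm {d : ℕ} (hd : 1 ≤ d) (g : ℝ → ℝ≥0∞) (hg : Measurable g) :
    ∫⁻ x : E d, g ‖x‖ = (d * volume (ball (0 : E d) 1)) *
      ∫⁻ ρ in Ioi (0 : ℝ), ENNReal.ofReal (ρ ^ (d - 1)) * g ρ := by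
  have : Nonempty (Fin d) := ⟨⟨0, hd⟩⟩
  have : Nontrivial (E d) := by infer_instance
  have hdim : Module.finrank ℝ (E d) = d := by simp
  have h1 : ∫⁻ x : E d, g ‖x‖ =
      ∫⁻ x : ({(0)}ᶜ : Set (E d)), g ‖x.1‖ ∂((volume : Measure (E d)).comap (↑)) := by
    rw [lintegral_subtype_comap (measurableSet_singleton _).compl fun x ↦ g ‖x‖,
      restrict_compl_singleton]
  have h2 : ∫⁻ x : ({(0)}ᶜ : Set (E d)), g ‖x.1‖ ∂((volume : Measure (E d)).comap (↑)) =
      ∫⁻ p, g p.2 ∂((volume : Measure (E d)).toSphere.prod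
        (Measure.volumeIoiPow (Module.finrank ℝ (E d) - 1))) := by
    have := (Measure.measurePreserving_homeomorphUnitSphereProd
      (volume : Measure (E d))).lintegral_comp_emb (Homeomorph.measurableEmbedding _)
      (fun p => g p.2)
    rw [← this]
    simp
  have h3 : ∫⁻ p, g p.2 ∂((volume : Measure (E d)).toSphere.prod
        (Measure.volumeIoiPow (Module.finrank ℝ (E d) - 1))) =
      (volume : Measure (E d)).toSphere univ *
        ∫⁻ y, g y ∂(Measure.volumeIoiPow (Module.finrank ℝ (E d) - 1)) := by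
    rw [lintegral_prod _ (by fun_prop)]
    simp [lintegral_const, mul_comm]
  have h4 : ∫⁻ y, g y ∂(Measure.volumeIoiPow (Module.finrank ℝ (E d) - 1)) =
      ∫⁻ ρ in Ioi (0 : ℝ), ENNReal.ofReal (ρ ^ (d - 1)) * g ρ := by
    rw [hdim, Measure.volumeIoiPow,
      lintegral_withDensity_eq_lintegral_mul _ (by fun_prop) (by fun_prop)]
    rw [← lintegral_subtype_comap measurableSet_Ioi
      (fun ρ : ℝ => ENNReal.ofReal (ρ ^ (d - 1)) * g ρ)]
    rfl
  rw [h1, h2, h3, h4, Measure.toSphere_apply_univ, hdim]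

end Vale.Agent.Lib.P137.H37
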