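import Mathlib
import Vale.Agent.Lib.P137.helper41.Defs

/-!
# P137 (helper37): derivative of a radial function against the derivative of its profile
-/

namespace Vale.Agent.Lib.P137.H37

open Vale.Agent.Lib.P137 MeasureTheory Metric Set Filter
open scoped ENNReal NNReal Topology

/-- The derivative of a radial function is bounded by the derivative of its profile. -/
theorem enorm_fderiv_radial_le {d : ℕ} (u : E d → ℝ) (G : ℝ → ℝ) (hu : ∀ x, u x = G ‖x‖)
    (x : E d) : ‖fderiv ℝ u x‖ₑ ≤ ENNReal.ofReal |deriv G ‖x‖| := by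
  by_cases hdiff : DifferentiableAt ℝ u x
  swap
  · rw [fderiv_zero_of_not_differentiableAt hdiff, ← ofReal_norm, norm_zero, ENNReal.ofReal_zero]
    exact zero_le
  rcases eq_or_ne x 0 with rfl | hx
  · have heven : (fun z => u (-z)) = u := by funext z; rw [hu, hu, norm_neg]
    have h1 : HasFDerivAt u (fderiv ℝ u 0) (0 : E d) := hdiff.hasFDerivAt
    have h2 : HasFDerivAt (fun z => u (-z))
        ((fderiv ℝ u 0).comp (-(ContinuousLinearMap.id ℝ (E d)))) (0 : E d) := by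
      have hneg : HasFDerivAt (fun z : E d => -z) (-(ContinuousLinearMap.id ℝ (E d))) 0 :=
        (hasFDerivAt_id (0 : E d)).neg
      have h1' : HasFDerivAt u (fderiv ℝ u 0) (-(0 : E d)) := by simpa using h1
      exact h1'.comp 0 hneg
    rw [heven] at h2
    have h3 := h1.unique h2
    have h4 : fderiv ℝ u 0 = 0 := by
      ext v
      have := congrArg (fun T : E d →L[ℝ] ℝ => T v) h3
      simp at this
      simp only [zero_apply]
      linarith
    rw [h4, ← ofReal_norm, norm_zero, ENNReal.ofReal_zero]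
    exact zero_le
  · have ht0pos : 0 < ‖x‖ := norm_pos_iff.2 hx
    have hvx : ‖x‖ • (‖x‖⁻¹ • x) = x := by
      rw [smul_smul, mul_inv_cancel₀ ht0pos.ne', one_smul]
    have hvn : ‖(‖x‖⁻¹ • x)‖ = 1 := by
      rw [norm_smul, norm_inv, norm_norm, inv_mul_cancel₀ ht0pos.ne']
    have hcurve : HasDerivAt (fun t : ℝ => u (t • (‖x‖⁻¹ • x)))
        ((fderiv ℝ u x) (‖x‖⁻¹ • x)) ‖x‖ := by
      have hγ : HasDerivAt (fun t : ℝ => t • (‖x‖⁻¹ • x)) (‖x‖⁻¹ • x) ‖x‖ := by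
        simpa using (hasDerivAt_id ‖x‖).smul_const (‖x‖⁻¹ • x)
      have h1 : HasFDerivAt u (fderiv ℝ u x) (‖x‖ • (‖x‖⁻¹ • x)) := by
        rw [hvx]; exact hdiff.hasFDerivAt
      exact h1.comp_hasDerivAt ‖x‖ hγ
    have hGeq : G =ᶠ[𝓝 ‖x‖] fun t : ℝ => u (t • (‖x‖⁻¹ • x)) := by
      filter_upwards [lt_mem_nhds ht0pos] with t ht
      rw [hu, norm_smul, hvn, mul_one, Real.norm_of_nonneg ht.le]
    have hGd : HasDerivAt G ((fderiv ℝ u x) (‖x‖⁻¹ • x)) ‖x‖ :=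
      hcurve.congr_of_eventuallyEq hGeq
    have hnorm : HasFDerivAt (fun z : E d => ‖z‖) (fderiv ℝ (fun z : E d => ‖z‖) x) x :=
      (differentiableAt_id.norm ℝ hx).hasFDerivAt
    have hcomp : HasFDerivAt (fun z : E d => G ‖z‖)
        ((deriv G ‖x‖) • fderiv ℝ (fun z : E d => ‖z‖) x) x :=
      hGd.differentiableAt.hasDerivAt.comp_hasFDerivAt x hnorm
    have hueq : u = fun z : E d => G ‖z‖ := funext hu
    rw [hueq, hcomp.fderiv, ← ofReal_norm]
    apply ENNReal.ofReal_le_ofReal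
    rw [norm_smul, Real.norm_eq_abs]
    calc |deriv G ‖x‖| * ‖fderiv ℝ (fun z : E d => ‖z‖) x‖ ≤ |deriv G ‖x‖| * 1 := by
          gcongr
          have := norm_fderiv_le_of_lipschitz ℝ (lipschitzWith_one_norm (E := E d)) (x₀ := x)
          simpa using this
      _ = |deriv G ‖x‖| := mul_one _

/-- Away from the origin the derivative of the profile is bounded by the derivative of the
radial function. -/
theorem abs_deriv_le_enorm_fderiv_radial {d : ℕ} (F : ℝ → ℝ) (x : E d) (hx : x ≠ 0) :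
    ENNReal.ofReal |deriv F ‖x‖| ≤ ‖fderiv ℝ (fun z : E d => F ‖z‖) x‖ₑ := by
  by_cases hdiff : DifferentiableAt ℝ F ‖x‖
  swap
  · rw [deriv_zero_of_not_differentiableAt hdiff]; simp
  have ht0pos : 0 < ‖x‖ := norm_pos_iff.2 hx
  have hvx : ‖x‖ • (‖x‖⁻¹ • x) = x := by
    rw [smul_smul, mul_inv_cancel₀ ht0pos.ne', one_smul]
  have hvn : ‖(‖x‖⁻¹ • x)‖ = 1 := by
    rw [norm_smul, norm_inv, norm_norm, inv_mul_cancel₀ ht0pos.ne']
  have hnorm : HasFDerivAt (fun z : E d => ‖z‖) (fderiv ℝ (fun z : E d => ‖z‖) x) x :=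
    (differentiableAt_id.norm ℝ hx).hasFDerivAt
  have hf : HasFDerivAt (fun z : E d => F ‖z‖)
      ((deriv F ‖x‖) • fderiv ℝ (fun z : E d => ‖z‖) x) x :=
    hdiff.hasDerivAt.comp_hasFDerivAt x hnorm
  have hfd : DifferentiableAt ℝ (fun z : E d => F ‖z‖) x := hf.differentiableAt
  have hcurve : HasDerivAt (fun t : ℝ => F ‖t • (‖x‖⁻¹ • x)‖)
      ((fderiv ℝ (fun z : E d => F ‖z‖) x) (‖x‖⁻¹ • x)) ‖x‖ := by
    have hγ : HasDerivAt (fun t : ℝ => t • (‖x‖⁻¹ • x)) (‖x‖⁻¹ • x) ‖x‖ := by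
      simpa using (hasDerivAt_id ‖x‖).smul_const (‖x‖⁻¹ • x)
    have h1 : HasFDerivAt (fun z : E d => F ‖z‖) (fderiv ℝ (fun z : E d => F ‖z‖) x)
        (‖x‖ • (‖x‖⁻¹ • x)) := by
      rw [hvx]; exact hfd.hasFDerivAt
    exact h1.comp_hasDerivAt ‖x‖ hγ
  have hFeq : F =ᶠ[𝓝 ‖x‖] fun t : ℝ => F ‖t • (‖x‖⁻¹ • x)‖ := by
    filter_upwards [lt_mem_nhds ht0pos] with t ht
    rw [norm_smul, hvn, mul_one, Real.norm_of_nonneg ht.le]
  have hFd : HasDerivAt F ((fderiv ℝ (fun z : E d => F ‖z‖) x) (‖x‖⁻¹ • x)) ‖x‖ :=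
    hcurve.congr_of_eventuallyEq hFeq
  rw [hFd.deriv, ← ofReal_norm]
  apply ENNReal.ofReal_le_ofReal
  have := (fderiv ℝ (fun z : E d => F ‖z‖) x).le_opNorm (‖x‖⁻¹ • x)
  rw [hvn, mul_one, Real.norm_eq_abs] at this
  exact this

end Vale.Agent.Lib.P137.H37
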