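import Mathlib
import Vale.Agent.Lib.P137.helper41.Defs

/-!
# P137 (helper37): tail integrals of the derivative of a monotone function
-/

namespace Vale.Agent.Lib.P137.H37

open Vale.Agent.Lib.P137 MeasureTheory Metric Set Filter
open scoped ENNReal NNReal Topology

theorem Ioi_eq_iUnion_Ioc (ρ : ℝ) : Ioi ρ = ⋃ N : ℕ, Ioc ρ (ρ + N) := by
  ext s
  simp only [mem_Ioi, mem_iUnion, mem_Ioc]
  constructor
  · intro hs
    obtain ⟨N, hN⟩ := exists_nat_ge (s - ρ)
    exact ⟨N, hs, by linarith⟩
  · rintro ⟨N, h, _⟩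
    exact h

theorem setLIntegral_Ioi_le_of_Ioc (h : ℝ → ℝ≥0∞) (ρ : ℝ) (c : ℝ≥0∞)
    (hb : ∀ b, ρ ≤ b → ∫⁻ s in Ioc ρ b, h s ≤ c) : ∫⁻ s in Ioi ρ, h s ≤ c := by
  rw [Ioi_eq_iUnion_Ioc, setLIntegral_iUnion_of_directed]
  · exact iSup_le fun N => hb _ (by simp)
  · intro M N
    refine ⟨max M N, ?_, ?_⟩
    · exact Ioc_subset_Ioc_right (by
        have : (M : ℝ) ≤ max M N := by exact_mod_cast le_max_left M N
        push_cast at this ⊢; linarith)
    · exact Ioc_subset_Ioc_right (by
        have : (N : ℝ) ≤ max M N := by exact_mod_cast le_max_right M N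
        push_cast at this ⊢; linarith)

/-- For a nonnegative antitone function the tail integral of `|G'|` is at most `G`. -/
theorem tail_deriv_le (G : ℝ → ℝ) (hG : Antitone G) (hG0 : ∀ t, 0 ≤ G t) (ρ : ℝ) :
    ∫⁻ s in Ioi ρ, ENNReal.ofReal |deriv G s| ≤ ENNReal.ofReal (G ρ) := by
  have hfm : Monotone (fun t => -G t) := fun a b hab => neg_le_neg (hG hab)
  have hderiv : ∀ s, |deriv G s| = deriv (fun t => -G t) s := by
    intro s
    have h1 : deriv (fun t => -G t) s = -deriv G s := deriv.fun_neg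
    have h2 : 0 ≤ deriv (fun t => -G t) s := hfm.deriv_nonneg
    rw [h1] at h2 ⊢
    rw [abs_of_nonpos (by linarith)]
  refine setLIntegral_Ioi_le_of_Ioc _ ρ _ fun b hb => ?_
  have hint : IntervalIntegrable (deriv (fun t => -G t)) volume ρ b :=
    (hfm.monotoneOn _).intervalIntegrable_deriv
  have hmem := (hfm.monotoneOn (uIcc ρ b)).intervalIntegral_deriv_mem_uIcc
  have hle : ∫ x in ρ..b, deriv (fun t => -G t) x ≤ (-G b) - (-G ρ) := by
    have : -G ρ ≤ -G b := hfm hb
    rw [uIcc_of_le (by linarith)] at hmem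
    exact hmem.2
  simp_rw [hderiv]
  rw [← ofReal_integral_eq_lintegral_ofReal hint.1
    (ae_of_all _ fun s => by rw [← hderiv]; exact abs_nonneg _)]
  apply ENNReal.ofReal_le_ofReal
  rw [← intervalIntegral.integral_of_le hb]
  linarith [hG0 b]

/-- A Lipschitz antitone function tending to `0` is at most the tail integral of `|F'|`. -/
theorem le_tail_deriv (F : ℝ → ℝ) (hF : Antitone F) {L : ℝ≥0} (hL : LipschitzWith L F)
    (hlim : Tendsto F atTop (𝓝 0)) (ρ : ℝ) :
    ENNReal.ofReal (F ρ) ≤ ∫⁻ s in Ioi ρ, ENNReal.ofReal |deriv F s| := by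
  have hfm : Monotone (fun t => -F t) := fun a b hab => neg_le_neg (hF hab)
  have hderiv : ∀ s, |deriv F s| = -deriv F s := by
    intro s
    have h1 : deriv (fun t => -F t) s = -deriv F s := deriv.fun_neg
    have h2 : 0 ≤ deriv (fun t => -F t) s := hfm.deriv_nonneg
    rw [h1] at h2
    rw [abs_of_nonpos (by linarith)]
  have hkey : ∀ b, ρ ≤ b →
      ENNReal.ofReal (F ρ - F b) ≤ ∫⁻ s in Ioi ρ, ENNReal.ofReal |deriv F s| := by
    intro b hb
    have hac : AbsolutelyContinuousOnInterval F ρ b :=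
      (hL.lipschitzOnWith (s := uIcc ρ b)).absolutelyContinuousOnInterval
    have hftc := hac.integral_deriv_eq_sub
    have hint : IntervalIntegrable (deriv F) volume ρ b := hac.intervalIntegrable_deriv
    have h1 : ∫⁻ s in Ioc ρ b, ENNReal.ofReal |deriv F s| = ENNReal.ofReal (F ρ - F b) := by
      simp_rw [hderiv]
      have hint' : IntegrableOn (fun s => -deriv F s) (Ioc ρ b) volume := hint.1.neg
      rw [← ofReal_integral_eq_lintegral_ofReal hint'
        (ae_of_all _ fun s => by
          show (0 : ℝ) ≤ -deriv F s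
          rw [← hderiv]; exact abs_nonneg _)]
      congr 1
      rw [← intervalIntegral.integral_of_le hb]
      simp only [intervalIntegral.integral_neg, hftc]
      ring
    rw [← h1]
    exact lintegral_mono_set Ioc_subset_Ioi_self
  have htend : Tendsto (fun b => ENNReal.ofReal (F ρ - F b)) atTop
      (𝓝 (ENNReal.ofReal (F ρ - 0))) :=
    (ENNReal.continuous_ofReal.tendsto _).comp (tendsto_const_nhds.sub hlim)
  rw [sub_zero] at htend
  refine le_of_tendsto htend ?_
  filter_upwards [eventually_ge_atTop ρ] with b hb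
  exact hkey b hb

end Vale.Agent.Lib.P137.H37
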