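import Mathlib
import Vale.Agent.Lib.P137.helper41.Defs

/-!
# P137 (helper37): a Tonelli identity on the half line
-/

namespace Vale.Agent.Lib.P137.H37

open Vale.Agent.Lib.P137 MeasureTheory Metric Set Filter
open scoped ENNReal NNReal Topology

theorem lintegral_Ioo_pow (n : ℕ) {s : ℝ} (hs : 0 ≤ s) :
    ∫⁻ ρ in Ioo (0 : ℝ) s, ENNReal.ofReal (ρ ^ n) = ENNReal.ofReal (s ^ (n + 1) / (n + 1)) := by
  rw [Measure.restrict_congr_set Ioo_ae_eq_Ioc,
    ← ofReal_integral_eq_lintegral_ofReal (intervalIntegral.intervalIntegrable_pow _).1,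
    ← intervalIntegral.integral_of_le hs]
  · simp
  · filter_upwards [ae_restrict_mem measurableSet_Ioc] with y hy
    exact pow_nonneg hy.1.le _

/-- Tonelli on the half line. -/
theorem tonelli_tail (n : ℕ) (h : ℝ → ℝ≥0∞) (hh : Measurable h) :
    (n + 1 : ℝ≥0∞) * ∫⁻ ρ in Ioi (0 : ℝ), ENNReal.ofReal (ρ ^ n) * ∫⁻ s in Ioi ρ, h s =
      ∫⁻ s in Ioi (0 : ℝ), ENNReal.ofReal (s ^ (n + 1)) * h s := by
  have hfm : Measurable (Function.uncurry fun (ρ s : ℝ) =>
      (Ioi ρ).indicator (fun s => ENNReal.ofReal (ρ ^ n) * h s) s) := by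
    have : (Function.uncurry fun (ρ s : ℝ) =>
        (Ioi ρ).indicator (fun s => ENNReal.ofReal (ρ ^ n) * h s) s) =
        {p : ℝ × ℝ | p.1 < p.2}.indicator (fun p => ENNReal.ofReal (p.1 ^ n) * h p.2) := by
      funext p
      simp [Function.uncurry, Set.indicator]
    rw [this]
    exact Measurable.indicator (by fun_prop) (measurableSet_lt measurable_fst measurable_snd)
  have h1 : ∀ ρ ∈ Ioi (0 : ℝ), ENNReal.ofReal (ρ ^ n) * ∫⁻ s in Ioi ρ, h s =
      ∫⁻ s in Ioi (0 : ℝ), (Ioi ρ).indicator (fun s => ENNReal.ofReal (ρ ^ n) * h s) s := by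
    intro ρ hρ
    have hρ0 : (0 : ℝ) < ρ := hρ
    rw [lintegral_indicator measurableSet_Ioi, Measure.restrict_restrict measurableSet_Ioi,
      inter_eq_left.2 (Ioi_subset_Ioi hρ0.le), lintegral_const_mul _ hh]
  have h2 : ∀ s ∈ Ioi (0 : ℝ),
      ∫⁻ ρ in Ioi (0 : ℝ), (Ioi ρ).indicator (fun s => ENNReal.ofReal (ρ ^ n) * h s) s =
        ENNReal.ofReal (s ^ (n + 1) / (n + 1)) * h s := by
    intro s hs
    have hs0 : (0 : ℝ) < s := hs
    have heq : (fun ρ : ℝ => (Ioi ρ).indicator (fun s => ENNReal.ofReal (ρ ^ n) * h s) s) =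
        (Iio s).indicator (fun ρ => ENNReal.ofReal (ρ ^ n) * h s) := by
      funext ρ
      simp [Set.indicator]
    rw [heq, lintegral_indicator measurableSet_Iio, Measure.restrict_restrict measurableSet_Iio,
      Iio_inter_Ioi, lintegral_mul_const _ (by fun_prop), lintegral_Ioo_pow n hs0.le]
  rw [setLIntegral_congr_fun measurableSet_Ioi h1,
    lintegral_lintegral_swap hfm.aemeasurable,
    setLIntegral_congr_fun measurableSet_Ioi h2,
    ← lintegral_const_mul _ (by fun_prop)]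
  refine setLIntegral_congr_fun measurableSet_Ioi fun s hs => ?_
  have hs0 : (0 : ℝ) < s := hs
  have hn : (n + 1 : ℝ≥0∞) = ENNReal.ofReal (n + 1) := by
    rw [ENNReal.ofReal_add (Nat.cast_nonneg n) zero_le_one, ENNReal.ofReal_natCast,
      ENNReal.ofReal_one]
  rw [← mul_assoc, hn, ← ENNReal.ofReal_mul (by positivity)]
  congr 2
  field_simp

end Vale.Agent.Lib.P137.H37
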