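import Vale.Agent.Lib.P137.helper37.Lip
import Vale.Agent.Lib.P137.helper37.Radial
import Vale.Agent.Lib.P137.helper37.Polar
import Vale.Agent.Lib.P137.helper37.Tonelli
import Vale.Agent.Lib.P137.helper37.Tail

/-!
# P137 (helper37): bridge from the weighted inequality for the centered maximal function of a
radially nonincreasing function to the gradient inequality of the problem

`bridge`: let `F : ℝ → ℝ` be antitone, nonnegative, Lipschitz and tend to `0` at infinity, and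
let `f x = F ‖x‖` on `ℝ^d`, `d ≥ 2`.  If the centered maximal function of `f` is radially
nonincreasing and satisfies the weighted inequality with constant `C`, then the real-valued
maximal function is Lipschitz with the same constant as `F` and the integral of the norm of its
derivative is at most `C` times the integral of the norm of the derivative of `f`.
-/

namespace Vale.Agent.Lib.P137.H37

open Vale.Agent.Lib.P137 MeasureTheory Metric Set Filter
open scoped ENNReal NNReal Topology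

/-- The real-valued centered maximal function of the radial function `x ↦ F ‖x‖`. -/
noncomputable def rmax (d : ℕ) (F : ℝ → ℝ) (x : E d) : ℝ :=
  (cmax (fun z : E d => ENNReal.ofReal (F ‖z‖)) x).toReal

variable {d : ℕ}

theorem cmax_radial_le (F : ℝ → ℝ) (hF : Antitone F) (x : E d) :
    cmax (fun z : E d => ENNReal.ofReal (F ‖z‖)) x ≤ ENNReal.ofReal (F 0) :=
  cmax_le_const _ _ (fun z => ENNReal.ofReal_le_ofReal (hF (norm_nonneg z))) x

theorem rmax_lipschitz (F : ℝ → ℝ) (hF : Antitone F) {L : ℝ≥0} (hL : LipschitzWith L F) :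
    LipschitzWith L (rmax d F) := by
  have hg : LipschitzWith L (fun z : E d => F ‖z‖) := by
    refine LipschitzWith.of_dist_le_mul fun x y => ?_
    calc dist (F ‖x‖) (F ‖y‖) ≤ L * dist ‖x‖ ‖y‖ := hL.dist_le_mul _ _
      _ ≤ L * dist x y := by
          gcongr
          rw [dist_eq_norm x y]
          exact dist_norm_norm_le x y
  refine LipschitzWith.of_le_add_mul L fun x y => ?_
  have hfin : ∀ x : E d, cmax (fun z : E d => ENNReal.ofReal (F ‖z‖)) x ≠ ⊤ := fun x =>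
    ne_top_of_le_ne_top ENNReal.ofReal_ne_top (cmax_radial_le F hF x)
  have h := cmax_lipschitz (fun z : E d => F ‖z‖) hg x y
  unfold rmax
  have h2 := ENNReal.toReal_mono (ENNReal.add_ne_top.2 ⟨hfin y, ENNReal.ofReal_ne_top⟩) h
  rw [ENNReal.toReal_add (hfin y) ENNReal.ofReal_ne_top,
    ENNReal.toReal_ofReal (by positivity)] at h2
  exact h2

/-- The bridge: from radial monotonicity and the weighted inequality for the centered maximal
function of `x ↦ F ‖x‖` to the Lipschitz property and the gradient inequality. -/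
theorem bridge (hd : 2 ≤ d) (F : ℝ → ℝ) (hF : Antitone F)
    {L : ℝ≥0} (hL : LipschitzWith L F) (hlim : Tendsto F atTop (𝓝 0)) (C : ℝ≥0∞)
    (hanti : ∀ x y : E d, ‖x‖ ≤ ‖y‖ →
      cmax (fun z : E d => ENNReal.ofReal (F ‖z‖)) y ≤
        cmax (fun z : E d => ENNReal.ofReal (F ‖z‖)) x)
    (hw : ∫⁻ x : E d, cmax (fun z : E d => ENNReal.ofReal (F ‖z‖)) x / ENNReal.ofReal ‖x‖ ≤
      C * ∫⁻ x : E d, ENNReal.ofReal (F ‖x‖) / ENNReal.ofReal ‖x‖) :
    LipschitzWith L (rmax d F) ∧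
      ∫⁻ x : E d, ‖fderiv ℝ (rmax d F) x‖ₑ ≤
        C * ∫⁻ x : E d, ‖fderiv ℝ (fun z : E d => F ‖z‖) x‖ₑ := by
  refine ⟨rmax_lipschitz F hF hL, ?_⟩
  obtain ⟨n, rfl⟩ : ∃ n, d = n + 2 := ⟨d - 2, by omega⟩
  have hfin : ∀ x : E (n + 2), cmax (fun z : E (n + 2) => ENNReal.ofReal (F ‖z‖)) x ≠ ⊤ :=
    fun x => ne_top_of_le_ne_top ENNReal.ofReal_ne_top (cmax_radial_le F hF x)
  -- a unit vector and the radial profile of the maximal function
  let e : E (n + 2) := EuclideanSpace.single 0 1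
  have he : ‖e‖ = 1 := by simp [e]
  let G : ℝ → ℝ := fun ρ => rmax (n + 2) F ((max ρ 0) • e)
  have hnorm : ∀ ρ : ℝ, ‖(max ρ 0) • e‖ = max ρ 0 := by
    intro ρ
    rw [norm_smul, he, mul_one, Real.norm_of_nonneg (le_max_right _ _)]
  have hGanti : Antitone G := by
    intro a b hab
    have h1 : ‖(max a 0) • e‖ ≤ ‖(max b 0) • e‖ := by
      rw [hnorm, hnorm]; exact max_le_max hab le_rfl
    exact ENNReal.toReal_mono (hfin _) (hanti _ _ h1)
  have hG0 : ∀ t, 0 ≤ G t := fun t => ENNReal.toReal_nonneg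
  have hrad : ∀ x : E (n + 2), rmax (n + 2) F x = G ‖x‖ := by
    intro x
    have h1 : ‖(max ‖x‖ 0) • e‖ = ‖x‖ := by rw [hnorm, max_eq_left (norm_nonneg x)]
    have h2 := le_antisymm (hanti _ _ h1.le) (hanti _ _ h1.ge)
    show (cmax _ x).toReal = (cmax _ ((max ‖x‖ 0) • e)).toReal
    rw [h2]
  have hcm : ∀ x : E (n + 2),
      cmax (fun z : E (n + 2) => ENNReal.ofReal (F ‖z‖)) x = ENNReal.ofReal (G ‖x‖) := by
    intro x
    rw [← hrad x]
    exact (ENNReal.ofReal_toReal (hfin x)).symm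
  set K : ℝ≥0∞ := ((n + 2 : ℕ) : ℝ≥0∞) * volume (ball (0 : E (n + 2)) 1) with hK
  have hGm : Measurable G := hGanti.measurable
  have hFm : Measurable F := hF.measurable
  have hdG : Measurable (fun s => ENNReal.ofReal |deriv G s|) :=
    ENNReal.measurable_ofReal.comp (measurable_deriv G).abs
  have hdF : Measurable (fun s => ENNReal.ofReal |deriv F s|) :=
    ENNReal.measurable_ofReal.comp (measurable_deriv F).abs
  -- polar coordinates for the weighted integrals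
  have hpol : ∀ (H : ℝ → ℝ), Measurable H →
      ∫⁻ x : E (n + 2), ENNReal.ofReal (H ‖x‖) / ENNReal.ofReal ‖x‖ =
        K * ∫⁻ ρ in Ioi (0 : ℝ), ENNReal.ofReal (ρ ^ n) * ENNReal.ofReal (H ρ) := by
    intro H hH
    rw [lintegral_fun_norm (by omega) (fun ρ => ENNReal.ofReal (H ρ) / ENNReal.ofReal ρ)
      ((ENNReal.measurable_ofReal.comp hH).div ENNReal.measurable_ofReal)]
    congr 1
    refine setLIntegral_congr_fun measurableSet_Ioi fun ρ hρ => ?_
    have hρ0 : (0 : ℝ) < ρ := hρ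
    have h1 : ENNReal.ofReal (ρ ^ (n + 2 - 1)) = ENNReal.ofReal (ρ ^ n) * ENNReal.ofReal ρ := by
      rw [← ENNReal.ofReal_mul (pow_nonneg hρ0.le _)]
      congr 1
    rw [h1, mul_assoc, ENNReal.mul_div_cancel (by simpa using hρ0) ENNReal.ofReal_ne_top]
  -- polar coordinates for the derivative integrals
  have hpol' : ∀ (h : ℝ → ℝ≥0∞), Measurable h →
      ∫⁻ x : E (n + 2), h ‖x‖ =
        K * ∫⁻ s in Ioi (0 : ℝ), ENNReal.ofReal (s ^ (n + 1)) * h s := by
    intro h hh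
    rw [lintegral_fun_norm (by omega) h hh]
    rfl
  have hA : ∫⁻ x : E (n + 2), ‖fderiv ℝ (rmax (n + 2) F) x‖ₑ ≤
      K * ((n + 1 : ℝ≥0∞) *
        ∫⁻ ρ in Ioi (0 : ℝ), ENNReal.ofReal (ρ ^ n) * ENNReal.ofReal (G ρ)) := by
    calc ∫⁻ x : E (n + 2), ‖fderiv ℝ (rmax (n + 2) F) x‖ₑ
        ≤ ∫⁻ x : E (n + 2), ENNReal.ofReal |deriv G ‖x‖| :=
          lintegral_mono fun x => enorm_fderiv_radial_le _ G hrad x
      _ = K * ∫⁻ s in Ioi (0 : ℝ), ENNReal.ofReal (s ^ (n + 1)) * ENNReal.ofReal |deriv G s| :=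
          hpol' _ hdG
      _ = K * ((n + 1 : ℝ≥0∞) * ∫⁻ ρ in Ioi (0 : ℝ), ENNReal.ofReal (ρ ^ n) *
            ∫⁻ s in Ioi ρ, ENNReal.ofReal |deriv G s|) := by
          rw [tonelli_tail n _ hdG]
      _ ≤ K * ((n + 1 : ℝ≥0∞) *
            ∫⁻ ρ in Ioi (0 : ℝ), ENNReal.ofReal (ρ ^ n) * ENNReal.ofReal (G ρ)) := by
          gcongr with ρ
          exact tail_deriv_le G hGanti hG0 ρ
  have hB : K * ((n + 1 : ℝ≥0∞) *
        ∫⁻ ρ in Ioi (0 : ℝ), ENNReal.ofReal (ρ ^ n) * ENNReal.ofReal (F ρ)) ≤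
      ∫⁻ x : E (n + 2), ‖fderiv ℝ (fun z : E (n + 2) => F ‖z‖) x‖ₑ := by
    calc K * ((n + 1 : ℝ≥0∞) *
          ∫⁻ ρ in Ioi (0 : ℝ), ENNReal.ofReal (ρ ^ n) * ENNReal.ofReal (F ρ))
        ≤ K * ((n + 1 : ℝ≥0∞) * ∫⁻ ρ in Ioi (0 : ℝ), ENNReal.ofReal (ρ ^ n) *
            ∫⁻ s in Ioi ρ, ENNReal.ofReal |deriv F s|) := by
          gcongr with ρ
          exact le_tail_deriv F hF hL hlim ρ
      _ = K * ∫⁻ s in Ioi (0 : ℝ), ENNReal.ofReal (s ^ (n + 1)) * ENNReal.ofReal |deriv F s| := by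
          rw [tonelli_tail n _ hdF]
      _ = ∫⁻ x : E (n + 2), ENNReal.ofReal |deriv F ‖x‖| := (hpol' _ hdF).symm
      _ ≤ ∫⁻ x : E (n + 2), ‖fderiv ℝ (fun z : E (n + 2) => F ‖z‖) x‖ₑ := by
          refine lintegral_mono_ae ?_
          have h0 : ∀ᵐ x : E (n + 2), x ∉ ({0} : Set (E (n + 2))) :=
            measure_eq_zero_iff_ae_notMem.1 (measure_singleton (0 : E (n + 2)))
          filter_upwards [h0] with x hx
          exact abs_deriv_le_enorm_fderiv_radial F x (by simpa using hx)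
  calc ∫⁻ x : E (n + 2), ‖fderiv ℝ (rmax (n + 2) F) x‖ₑ
      ≤ K * ((n + 1 : ℝ≥0∞) *
          ∫⁻ ρ in Ioi (0 : ℝ), ENNReal.ofReal (ρ ^ n) * ENNReal.ofReal (G ρ)) := hA
    _ = (n + 1 : ℝ≥0∞) * ∫⁻ x : E (n + 2),
          cmax (fun z : E (n + 2) => ENNReal.ofReal (F ‖z‖)) x / ENNReal.ofReal ‖x‖ := by
        rw [mul_left_comm, ← hpol G hGm]
        simp_rw [hcm]
    _ ≤ (n + 1 : ℝ≥0∞) * (C * ∫⁻ x : E (n + 2), ENNReal.ofReal (F ‖x‖) / ENNReal.ofReal ‖x‖) :=
        by gcongr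
    _ = C * (K * ((n + 1 : ℝ≥0∞) *
          ∫⁻ ρ in Ioi (0 : ℝ), ENNReal.ofReal (ρ ^ n) * ENNReal.ofReal (F ρ))) := by
        rw [hpol F hFm]; ring
    _ ≤ C * ∫⁻ x : E (n + 2), ‖fderiv ℝ (fun z : E (n + 2) => F ‖z‖) x‖ₑ :=
        by gcongr

/-- Rademacher: the real-valued maximal function is differentiable almost everywhere. -/
theorem rmax_ae_differentiableAt (F : ℝ → ℝ) (hF : Antitone F) {L : ℝ≥0}
    (hL : LipschitzWith L F) : ∀ᵐ x : E d, DifferentiableAt ℝ (rmax d F) x :=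
  (rmax_lipschitz F hF hL).ae_differentiableAt

/-- The maximal function `cmax` of `x ↦ F ‖x‖` is finite and equals `rmax`. -/
theorem ofReal_rmax (F : ℝ → ℝ) (hF : Antitone F) (x : E d) :
    ENNReal.ofReal (rmax d F x) = cmax (fun z : E d => ENNReal.ofReal (F ‖z‖)) x :=
  ENNReal.ofReal_toReal (ne_top_of_le_ne_top ENNReal.ofReal_ne_top (cmax_radial_le F hF x))

end Vale.Agent.Lib.P137.H37
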